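import Vale.Agent.P248.Universal.Bounds
import Vale.Agent.P248.Universal.Step

/-!
# Explicit volume product bounds for every symmetric body in dimensions four to seven
-/

open MeasureTheory
open scoped Nat

namespace Vale.Agent.Results.P248.LowDimensionBounds

open Vale.Agent.P248.Balanced

/-- Explicit lower bounds for the volume product of every symmetric convex body in low dimension. -/
theorem result :
    (∀ K : Set (Fin 4 → ℝ), SymBody K → 817 / 100 ≤ volume.real K * volume.real (polar K)) ∧
      (∀ K : Set (Fin 5 → ℝ), SymBody K → 525 / 100 ≤ volume.real K * volume.real (polar K)) ∧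
      (∀ K : Set (Fin 6 → ℝ), SymBody K → 266 / 100 ≤ volume.real K * volume.real (polar K)) ∧
      ∀ K : Set (Fin 7 → ℝ), SymBody K → 110 / 100 ≤ volume.real K * volume.real (polar K) :=
  Vale.Agent.P248.Universal.bounds fun _ hn _ hS _ _ hR hb hrec =>
    Vale.Agent.P248.Universal.step hn hS hR hb hrec

end Vale.Agent.Results.P248.LowDimensionBounds
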