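import Vale.Agent.P248.Balanced.Main
import Vale.Agent.P248.Balanced.Quarter
import Vale.Agent.P248.Balanced.FreePlane

/-!
# The symmetric Mahler bound for equipartitioned bodies and bodies with quarter turns
-/

open MeasureTheory
open scoped Nat

namespace Vale.Agent.Results.P248.QuarterTurnBodies

open Vale.Agent.P248.Balanced

/-- The symmetric Mahler inequality holds for bodies all of whose coordinate sections are
equipartitioned by the orthants, in particular for bodies invariant under quarter turns in
disjoint coordinate planes and sign changes of the remaining coordinates, and for bodies invariant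
under the sign changes and exchanges of all but two coordinates. -/
theorem result :
    (∀ (n : ℕ) (K : Set (Fin n → ℝ)), SymBody K → Equipartite K →
        (4 : ℝ) ^ n / n ! ≤ volume.real K * volume.real (polar K)) ∧
      (∀ (n : ℕ) (τ : Fin n → Fin n) (K : Set (Fin n → ℝ)), SymBody K → (∀ i, τ (τ i) = i) →
        (∀ i, ∀ x ∈ K, quarterTurn τ i x ∈ K) →
          (4 : ℝ) ^ n / n ! ≤ volume.real K * volume.real (polar K)) ∧
      ∀ (n : ℕ) (a b : Fin n) (K : Set (Fin n → ℝ)), SymBody K → a ≠ b →
        (∀ i, i ≠ a → i ≠ b → ∀ x ∈ K, Function.update x i (-x i) ∈ K) →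
        (∀ i j, i ≠ a → i ≠ b → j ≠ a → j ≠ b → ∀ x ∈ K, x ∘ Equiv.swap i j ∈ K) →
          (4 : ℝ) ^ n / n ! ≤ volume.real K * volume.real (polar K) :=
  ⟨fun _ _ hS hE => mahler_of_equipartite hS hE,
    fun _ _ _ hS hτ hK => mahler_of_equipartite hS (equipartite_of_quarterTurns hτ hK),
    fun _ _ _ _ hS hab hflip hswap =>
      mahler_of_four_pow_le hS (four_pow_le_offPlane hS hab ⟨hflip, hswap⟩)⟩

end Vale.Agent.Results.P248.QuarterTurnBodies
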